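import Vale.Agent.P218GS.Id

/-! # P218, block GS: the defect of the geometric family -/

open Set Filter Topology Metric Asymptotics
open scoped RealInnerProductSpace

set_option linter.unusedSectionVars false

namespace Vale.Agent.P218GE

open Vale.Agent.P218GA hiding IsTube defect
open Vale.Agent.P218VA
open Vale.Agent.P218DY (IsTube defect)
open Vale.Agent.P272.K.LIN
open Vale.Agent.P218.H313 (rho rho_pos continuous_rho)

lemma tube_GA {ω : E3 → ℝ} {δ C : ℝ} (h : IsTube ω δ C) : P218GA.IsTube ω δ C :=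
  ⟨h.pos, h.smooth, h.norm_grad, h.hess_le⟩

lemma abs_defect_le {ω : E3 → ℝ} {δ C : ℝ} (h : IsTube ω δ C) {x : E3} (hx : ω x = 0) :
    |defect ω x| ≤ 4 * C := by
  have h0 : |ω x| < δ := by rw [hx, abs_zero]; exact h.pos
  have h1 := (tube_GA h).abs_lap_le h0
  have h2 := h.supp_le x hx
  have h3 := (norm_nonneg _).trans (h.hess_le x h0)
  simp only [finrank_euclideanSpace, Fintype.card_fin, Nat.cast_ofNat] at h1
  refine (abs_sub _ _).trans ?_
  rw [abs_div, abs_two]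
  linarith

lemma tube_mono {ω : E3 → ℝ} {δ C C' : ℝ} (h : IsTube ω δ C) (hC : C ≤ C') : IsTube ω δ C' :=
  ⟨h.pos, h.smooth, h.norm_grad, fun x hx => (h.hess_le x hx).trans hC,
    fun x hx => (h.supp_le x hx).trans hC⟩

section lam
variable {Λ : Type*} [NormedAddCommGroup Λ] [NormedSpace ℝ Λ] [FiniteDimensional ℝ Λ]

/-- evaluation of a linear family of functions at a point -/
noncomputable def evL (e : Λ →ₗ[ℝ] (E3 → ℝ)) (x : E3) : Λ →L[ℝ] ℝ :=
  LinearMap.toContinuousLinearMap ((LinearMap.proj x).comp e)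

lemma evL_apply (e : Λ →ₗ[ℝ] (E3 → ℝ)) (x : E3) (l : Λ) : evL e x l = e l x := rfl

lemma continuous_evL {e : Λ →ₗ[ℝ] (E3 → ℝ)} (h : ∀ l, Continuous (e l)) : Continuous (evL e) :=
  continuous_clm_apply.2 h

lemma exists_e_bound {e : Λ →ₗ[ℝ] (E3 → ℝ)} (h : ∀ l, Continuous (e l)) {R0 : ℝ}
    (h0 : ∀ l x, R0 ≤ ‖x‖ → e l x = 0) : ∃ B : ℝ, 0 ≤ B ∧ ∀ l x, |e l x| ≤ B * ‖l‖ := by
  obtain ⟨B, hB, h1⟩ := Vale.Agent.P218DY.exists_lin_bound h R0
  refine ⟨B, hB, fun l x => ?_⟩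
  rcases le_total ‖x‖ R0 with h2 | h2
  · exact h1 l x h2
  · rw [h0 l x h2, abs_zero]; positivity

end lam

variable {S : Set E3} {w : E3 → ℝ} {δ C : ℝ} {ι κ M : Type} [TopologicalSpace M]
  [ChartedSpace E2 M] {Q P : Type} [TopologicalSpace Q] [NormedAddCommGroup P] [NormedSpace ℝ P]
  {m : Model S w δ C ι κ M} [Finite ι] [Finite κ] [T2Space M] [RSm E2 M] [CompactSpace M]
  {π : Par Q P} {R : RealFam m π} (G : Geo R)

namespace Geo

/-- the identity on the exact part -/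
theorem elm : ∀ᶠ q in π.l, ∀ y ∈ R.Ex q, 0 < jf (sec G.Φ q) (m.F y) (m.nu y) ∧
    LagM (fun z => cx (m.F z)) (fun z => cx (R.X q z)) y
      = (jf (sec G.Φ q) (m.F y) (m.nu y) : ℝ) ∧
    ∀ V, ELM (fun z => cx (m.F z)) (fun z => cx (R.X q z)) y (cx V)
      = (jf (sec G.Φ q) (m.F y) (m.nu y) * defect (sec G.wq q) (R.X q y)
        * ⟪gradient (sec G.wq q) (R.X q y), V⟫ : ℝ) := by
  filter_upwards [G.diffeo, G.exact, G.tube, G.wq_X, R.W_top.eventually_gt_atTop (4 * m.w0)]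
    with q h1 h2 h3 h4 h5 y hy
  exact ELM_eq h1.1 h1.2.2 (R.isOpen_Ex h5) (fun _ h => h.1) h2 (tube_GA h3) h4 hy

include G in
theorem rimm : ∀ᶠ q in π.l, RImm (R.Ex q) (R.X q) := by
  filter_upwards [G.diffeo, G.exact, R.W_top.eventually_gt_atTop (4 * m.w0)] with q h1 h2 h5
  exact rimm_comp h1.1 h1.2.2 (R.isOpen_Ex h5) (fun _ h => h.1) h2

include G in
/-- the equation on the ends, from polar coordinates -/
theorem elm_of_ppf : ∀ᶠ q in π.l, ∀ j p, m.w0 < p.1 → pt m j p ∈ R.Ex q →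
    PPF (1, 0) (0, 1) (fun p => cx (R.X q (pt m j p))) p = 0 →
    ∀ V, ELM (fun z => cx (m.F z)) (fun z => cx (R.X q z)) (pt m j p) V = 0 := by
  filter_upwards [G.rimm] with q h j p hp hy h0 V
  have hF := m.rimm.imm hy.1
  have h1 := ELM_param (m.mem j) (m.pol_mem j hp) hF (h.imm hy).ck contDiff_pol.contDiffAt
    (jac_pol_ne p) V
  have h2 := LagF_comp ((hF.ck.at_target (m.mem j) (m.pol_mem j hp)).differentiableAt (by simp))
    (differentiable_pol p) (jac_pol_ne p)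
  have h3 := hF.lag_ne (m.mem j) ((m.φ j).map_target (m.pol_mem j hp))
  rw [pt, (m.φ j).right_inv (m.pol_mem j hp)] at h3
  have h4 : ELF (1, 0) (0, 1) (fun z => cx (R.X q ((m.φ j).symm (pol z)))) p V = 0 := by
    have h5 : PP _ _ _ _ _ _ = 0 := h0
    simp only [pt] at h5
    rw [ELF, EL, h5]
    simp
  simp only [cX] at h2
  rw [h4, h2] at h1
  exact (mul_eq_zero.1 h1).resolve_right
    (mul_ne_zero (by exact_mod_cast abs_ne_zero.2 (jac_pol_ne p)) h3)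

lemma tendsto_jf {x : E3} (hx : w x = 0) :
    Tendsto (fun z : Q × E3 => jf (sec G.Φ z.1) z.2 (gradient w z.2)) (π.l ×ˢ 𝓝 x) (𝓝 1) := by
  have h1 := (continuous_rho.tendsto x).comp (G.dΦ x).tendsto
  have h2 := (continuous_rho.tendsto x).comp (tendsto_snd (f := π.l))
  have h3 := (G.dΦ x).toD1.lim
  rw [fderiv_fun_id] at h3
  have h4 := ((continuous_gradient m.tube.cd1).tendsto x).comp (tendsto_snd (f := π.l))
  have h5 := (h1.div h2 (rho_pos x).ne').mul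
    ((continuous_cof.tendsto (_, _)).comp (h3.prodMk_nhds h4)).norm
  rwa [div_self (rho_pos x).ne', cof_id, m.tube.unit x hx, mul_one] at h5

lemma tendsto_fac {x : E3} (hx : w x = 0) :
    Tendsto (fun z : Q × E3 => jf (sec G.Φ z.1) z.2 (gradient w z.2)
      * ⟪gradient (sec G.wq z.1) (G.Φ z), gradient w z.2⟫) (π.l ×ˢ 𝓝 x) (𝓝 1) := by
  have h4 := ((continuous_gradient m.tube.cd1).tendsto x).comp (tendsto_snd (f := π.l))
  have h5 := (G.dgrad x).tendsto.comp (G.dΦ x).graph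
  have h6 := (G.tendsto_jf hx).mul (h5.inner (𝕜 := ℝ) h4)
  rwa [G.grad_eq hx, real_inner_self_eq_norm_sq, m.tube.unit x hx, one_pow, mul_one] at h6

lemma ev_one {f : Q × E3 → ℝ} (h : ∀ x, w x = 0 → Tendsto f (π.l ×ˢ 𝓝 x) (𝓝 1)) (r : ℝ) {ε : ℝ}
    (hw : Continuous w) (hε : 0 < ε) :
    ∀ᶠ q in π.l, ∀ x, w x = 0 → ‖x‖ ≤ r → |f (q, x) - 1| ≤ ε := by
  have hK : IsCompact (closedBall (0 : E3) r ∩ {x | w x = 0}) :=
    (isCompact_closedBall _ _).inter_right (isClosed_eq hw continuous_const)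
  filter_upwards [ev_compact hK (p := fun z => ‖f z - 1‖ ≤ ε) fun x hx =>
    ev_close (f₀ := fun _ => 1) (h x hx.2) continuousAt_const hε] with q hq x h1 h2
  exact hq x ⟨mem_closedBall_zero_iff.2 h2, h1⟩

variable {Λ : Type*} [NormedAddCommGroup Λ] [NormedSpace ℝ Λ] [FiniteDimensional ℝ Λ]

lemma e_close {e : Λ →ₗ[ℝ] (E3 → ℝ)} (h : ∀ l, Continuous (e l)) (r : ℝ) {ε : ℝ} (hε : 0 < ε) :
    ∀ᶠ q in π.l, ∀ x, ‖x‖ ≤ r → ∀ l, |e l (G.Φ (q, x)) - e l x| ≤ ε * ‖l‖ := by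
  have h1 := continuous_evL h
  filter_upwards [ev_compact (isCompact_closedBall (0 : E3) r)
    (p := fun z => ‖evL e (G.Φ z) - evL e z.2‖ ≤ ε) fun x _ => by
      have := (((h1.tendsto x).comp (G.dΦ x).tendsto).sub
        ((h1.tendsto x).comp (tendsto_snd (f := π.l)))).norm
      rw [sub_self, norm_zero] at this
      exact this.eventually_le_const hε] with q hq x hx l
  exact (evL e (G.Φ (q, x)) - evL e x).le_of_opNorm_le (hq x (mem_closedBall_zero_iff.2 hx)) l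

/-- the defect on the exact part -/
theorem err_Ex {e : Λ →ₗ[ℝ] (E3 → ℝ)} {lam : Q → Λ} {D : Set M} {R0 : ℝ}
    (e_cont : ∀ l, Continuous (e l)) (e_supp : ∀ l x, R0 ≤ ‖x‖ → e l x = 0)
    (D_bd : ∀ y ∈ D, y ∈ m.reg → ‖m.F y‖ ≤ R0)
    (e_D : ∀ l, ∀ y ∈ m.reg, y ∉ D → e l (m.F y) = 0)
    (eqn : ∀ᶠ q in π.l, ∀ y ∈ R.Ex q,
      (y ∈ D → ELM (fun z => cx (m.F z)) (fun z => cx (R.X q z)) y (cx (m.nu y))
        = (e (lam q) (m.F y) : ℝ)) ∧
      (y ∉ D → ∀ V, ELM (fun z => cx (m.F z)) (fun z => cx (R.X q z)) y V = 0))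
    {ε : ℝ} (hε : 0 < ε) : ∀ᶠ q in π.l, ∀ y ∈ R.Ex q,
      |defect (sec G.wq q) (R.X q y) - e (lam q) (R.X q y)| ≤ ε * ‖lam q‖ := by
  obtain ⟨B, hB, hb⟩ := exists_e_bound e_cont e_supp
  have hs : 1 ≤ R.s := m.one_le.trans R.w0_le
  have hτ : 0 < min (1 / 2) (ε / (4 * (B + 1))) := by positivity
  filter_upwards [eqn, G.elm, G.exact, G.tube, G.wq_X, R.norm_X,
    G.e_close e_cont (|R0| + R.s + 1) (half_pos hε),
    ev_one (fun x => G.tendsto_fac) R0 m.tube.smooth.continuous hτ]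
    with q h1 h2 h3 h4 h5 h6 h7 h8 y hy
  obtain ⟨j0, -, j1⟩ := h2 y hy
  have hl := norm_nonneg (lam q)
  have hR := le_abs_self R0
  have hR' := abs_nonneg R0
  by_cases hD : y ∈ D
  · have a1 := D_bd y hD hy.1
    have a2 := h7 _ (by linarith : ‖m.F y‖ ≤ _) (lam q)
    have a3 := h8 _ (m.w_F hy.1) a1
    have a4 := ((h1 y hy).1 hD).symm.trans (j1 _)
    have a5 := hb (lam q) (m.F y)
    rw [h3 y hy] at a2 a3
    norm_cast at a4
    change |jf (sec G.Φ q) (m.F y) (m.nu y) * ⟪gradient (sec G.wq q) (R.X q y), m.nu y⟫ - 1|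
      ≤ _ at a3
    rw [mul_right_comm] at a4
    generalize jf (sec G.Φ q) (m.F y) (m.nu y) * ⟪gradient (sec G.wq q) (R.X q y), m.nu y⟫ = J
      at a3 a4
    generalize defect (sec G.wq q) (R.X q y) = d at a4 ⊢
    have a6 := a3.trans (min_le_left _ _)
    have a7 := a3.trans (min_le_right _ _)
    have a8 : |d| ≤ 2 * (B * ‖lam q‖) := by
      rw [a4, abs_mul] at a5
      have : 1 / 2 ≤ |J| := (by linarith [(abs_le.1 a6).1] : 1 / 2 ≤ J).trans (le_abs_self J)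
      nlinarith [abs_nonneg d]
    have a9 : |d - e (lam q) (m.F y)| ≤ ε / 2 * ‖lam q‖ := by
      rw [a4, show d - J * d = -((J - 1) * d) by ring, abs_neg, abs_mul]
      calc |J - 1| * |d| ≤ ε / (4 * (B + 1)) * (2 * ((B + 1) * ‖lam q‖)) := by
            gcongr
            nlinarith
        _ = _ := by field_simp; norm_num
    have a10 := abs_sub_le d (e (lam q) (m.F y)) (e (lam q) (R.X q y))
    rw [abs_sub_comm] at a2
    linarith
  · have a1 := ((h1 y hy).2 hD _).symm.trans (j1 (gradient (sec G.wq q) (R.X q y)))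
    rw [real_inner_self_eq_norm_sq, (tube_GA h4).unit _ (h5 y hy), one_pow, mul_one] at a1
    norm_cast at a1
    rw [(mul_eq_zero.1 a1.symm).resolve_left j0.ne', zero_sub, abs_neg]
    rcases le_or_gt ‖m.F y‖ (|R0| + R.s + 1) with a2 | a2
    · have a3 := h7 _ a2 (lam q)
      rw [h3 y hy, e_D _ y hy.1 hD, sub_zero] at a3
      nlinarith
    · rw [e_supp _ _ (by rw [h6 y hy (by nlinarith)]; linarith), abs_zero]
      positivity

/-- the defect everywhere -/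
theorem err {e : Λ →ₗ[ℝ] (E3 → ℝ)} {lam : Q → Λ} {η : Q → ℝ} {R0 : ℝ} {k : ℕ}
    (e_supp : ∀ l x, R0 ≤ ‖x‖ → e l x = 0)
    (hEx : ∀ ε : ℝ, 0 < ε → ∀ᶠ q in π.l, ∀ y ∈ R.Ex q,
      |defect (sec G.wq q) (R.X q y) - e (lam q) (R.X q y)| ≤ ε * ‖lam q‖)
    (sl : ∀ ε : ℝ, 0 < ε → ∀ᶠ q in π.l, (R.W q)⁻¹ ^ k ≤ ε * ‖lam q‖ + η q)
    {ε : ℝ} (hε : 0 < ε) : ∀ᶠ q in π.l, ∀ x, G.wq (q, x) = 0 →
      |defect (sec G.wq q) x - e (lam q) x| ≤ (ε * ‖lam q‖ + η q) * (1 + ‖x‖) ^ (2 * k + 2) := by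
  filter_upwards [hEx _ (half_pos hε), sl _ (half_pos hε), G.zero, G.exact, G.far, G.tube,
    R.W_top.eventually_gt_atTop 0, R.W_top.eventually_ge_atTop (R0 ^ 2),
    R.W_top.eventually_ge_atTop (4 * G.C')] with q h1 h2 h3 h4 h5 h6 h7 h8 h9 x hx
  obtain ⟨y, hy, rfl⟩ := (h3 x).1 hx
  have hl := mul_nonneg hε.le (norm_nonneg (lam q))
  have a0 : 0 < (R.W q)⁻¹ ^ k := by positivity
  have hn := norm_nonneg (G.Φ (q, m.F y))
  by_cases hE : y ∈ R.Ex q
  · rw [h4 y hE]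
    refine (h1 y hE).trans (le_trans (by linarith) (le_mul_of_one_le_right (by linarith)
      (one_le_pow₀ (le_add_of_nonneg_right (norm_nonneg _)))))
  · have a1 : R.W q ≤ ‖G.Φ (q, m.F y)‖ ^ 2 := by
      by_contra a2
      refine hE ⟨hy, fun i p hp a3 => a2 ?_⟩
      rw [a3, h5 i p hp]
      linarith
    rw [e_supp _ _ (abs_le_of_sq_le_sq' (h8.trans a1) hn).2, sub_zero]
    have a2 : R.W q ^ (k + 1) ≤ (1 + ‖G.Φ (q, m.F y)‖) ^ (2 * k + 2) := by
      rw [show 2 * k + 2 = 2 * (k + 1) by ring, pow_mul]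
      exact pow_le_pow_left₀ h7.le (by nlinarith) _
    calc |defect (sec G.wq q) (G.Φ (q, m.F y))| ≤ R.W q := (abs_defect_le h6 hx).trans h9
      _ = (R.W q)⁻¹ ^ k * R.W q ^ (k + 1) := by
          rw [inv_pow]; field_simp; ring
      _ ≤ _ := mul_le_mul (by linarith) a2 (by positivity) (by linarith)

end Geo

end Vale.Agent.P218GE
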