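import Vale.Agent.P218GS.Main

/-! # P218, block GS: the Gaussian area of the geometric family -/

open MeasureTheory Set Filter Topology Metric
open scoped RealInnerProductSpace ENNReal NNReal

set_option linter.unusedSectionVars false

namespace Vale.Agent.P218GE

open Vale.Agent.P218GA hiding IsTube defect
open Vale.Agent.P218VA
open Vale.Agent.P218DY (IsTube defect IsLojSeq)
open Vale.Agent.P272.K.LIN
open Vale.Agent.P218.H63 (gaussArea stab)
open Vale.Agent.P218.H313 (rho rho_pos)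

lemma gauss_tail {δ : ℝ} (hδ : 0 < δ) (C : ℝ) : ∃ A : ℝ, ∀ ω : E3 → ℝ, P218GA.IsTube ω δ C →
    ∀ W : ℝ, gam ({x | ω x = 0} ∩ {x | W ≤ ‖x‖ ^ 2}) ≤ ENNReal.ofReal (Real.exp (-W / 8) * A) := by
  obtain ⟨A, hA⟩ := exists_mom_bound (E := E3) (m := 2) (by simp) hδ C (κ := 1 / 8) (by norm_num) 0
  refine ⟨A, fun ω h W => ?_⟩
  obtain ⟨h1, h2⟩ := hA ω h
  simp only [pow_zero, one_mul] at h1 h2
  have hm : MeasurableSet {x : E3 | W ≤ ‖x‖ ^ 2} :=
    (isClosed_le continuous_const (continuous_norm.pow 2)).measurableSet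
  have hz := measurableSet_zero h.smooth.continuous
  rw [gam, withDensity_apply _ (hz.inter hm), inter_comm, ← Measure.restrict_restrict hm,
    ENNReal.ofReal_mul (Real.exp_pos _).le]
  calc ∫⁻ x in {x : E3 | W ≤ ‖x‖ ^ 2}, ENNReal.ofReal (rho x) ∂(area 2 ω)
      ≤ ∫⁻ x in {x : E3 | W ≤ ‖x‖ ^ 2}, ENNReal.ofReal (Real.exp (-W / 8))
          * ENNReal.ofReal (Real.exp (-(1 / 8 * ‖x‖ ^ 2))) ∂(area 2 ω) := by
        refine setLIntegral_mono' hm fun x hx => ?_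
        rw [← ENNReal.ofReal_mul (Real.exp_pos _).le, ← Real.exp_add]
        exact ENNReal.ofReal_le_ofReal (Real.exp_le_exp.2 (by
          have : W ≤ ‖x‖ ^ 2 := hx
          linarith))
    _ ≤ _ := by
        refine (setLIntegral_le_lintegral _ _).trans ?_
        rw [lintegral_const_mul' _ _ ENNReal.ofReal_ne_top, ← ofReal_integral_eq_lintegral_ofReal h1
          (Eventually.of_forall fun _ => (Real.exp_pos _).le)]
        exact mul_le_mul_right (ENNReal.ofReal_le_ofReal h2) _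

lemma ev_exp_le {c c' : ℝ} (h : c' < c) (A : ℝ) :
    ∀ᶠ W : ℝ in atTop, Real.exp (-c * W) * A ≤ Real.exp (-c' * W) := by
  filter_upwards [(Real.tendsto_exp_atTop.comp
    (tendsto_id.const_mul_atTop (sub_pos.2 h))).eventually_ge_atTop A] with W hW
  refine (mul_le_mul_of_nonneg_left hW (Real.exp_pos _).le).trans (le_of_eq ?_)
  rw [Function.comp_apply, ← Real.exp_add, id]
  congr 1
  ring

section mu
variable {M : Type*} [TopologicalSpace M] [ChartedSpace E2 M] [RSm E2 M] [T2Space M]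
  [CompactSpace M] [MeasurableSpace M] [BorelSpace M] {Ω Ω' A : Set M} {X : M → E3}

lemma muX_apply (h : RImm Ω X) (hi : InjOn X Ω) (hA : MeasurableSet A) :
    muX Ω X A = (cH 2)⁻¹ • gam (X '' (A ∩ Ω)) := by
  rw [muX, Measure.smul_apply, Measure.map_apply measurable_subtype_coe hA, (h.emb hi).comap_apply]
  congr 2
  ext y
  simp [and_assoc]

lemma muX_restrict (h : RImm Ω X) (hi : InjOn X Ω) (h' : IsOpen Ω') (hs : Ω' ⊆ Ω) :
    muX Ω' X = (muX Ω X).restrict Ω' := by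
  ext A hA
  rw [Measure.restrict_apply hA, muX_apply (h.mono h' hs) (hi.mono hs) hA,
    muX_apply h hi (hA.inter h'.measurableSet), inter_assoc, inter_eq_left.2 hs]

end mu

variable {S : Set E3} {w : E3 → ℝ} {δ C : ℝ} {ι κ M : Type} [TopologicalSpace M]
  [ChartedSpace E2 M] {Q P : Type} [TopologicalSpace Q] [NormedAddCommGroup P] [NormedSpace ℝ P]
  {m : Model S w δ C ι κ M} [Finite ι] [Finite κ] [T2Space M] [RSm E2 M] [CompactSpace M]
  [MeasurableSpace M] [BorelSpace M]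

/-- **The Gaussian area is at most the action on the exact part**, up to a small error -/
theorem Geo.area_le {π : Par Q P} {R : RealFam m π} (G : Geo R) :
    ∀ᶠ q in π.l, gaussArea 2 {x | G.wq (q, x) = 0} univ ≤ cH 2 * (∫⁻ y in R.Ex q, ENNReal.ofReal
      (LagM (fun z => cx (m.F z)) (fun z => cx (R.X q z)) y).re ∂m.mu0)
        + ENNReal.ofReal (Real.exp (-(1 / 16) * R.W q)) := by
  obtain ⟨A, hA⟩ := gauss_tail G.tube0.pos G.C'
  filter_upwards [G.rimm, G.zero, G.exact, G.far, G.tube,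
    R.W_top.eventually (ev_exp_le (show (1 / 16 : ℝ) < 1 / 8 by norm_num) A)]
    with q h1 h2 h3 h4 h5 h6
  have hz : MeasurableSet {x | G.wq (q, x) = 0} := measurableSet_zero h5.smooth.continuous
  have hm : MeasurableSet {x : E3 | R.W q ≤ ‖x‖ ^ 2} :=
    (isClosed_le continuous_const (continuous_norm.pow 2)).measurableSet
  have hs : R.Ex q ⊆ m.reg := fun _ h => h.1
  have h7 := (m.rimm.mono h1.opn hs).gaussArea_le (m.inj.mono hs) h1 (hz.diff hm) (by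
    rintro x ⟨hx, hx'⟩
    obtain ⟨y, hy, rfl⟩ := (h2 x).1 hx
    have hE : y ∈ R.Ex q := ⟨hy, fun i p hp e => hx' (by
      rw [mem_ofPred_eq, e, h4 i p hp]; linarith)⟩
    exact ⟨y, hE, (h3 y hE).symm⟩)
  rw [muX_restrict m.rimm m.inj h1.opn hs, ← gam_restrict (hz.diff hm),
    Measure.restrict_apply_univ] at h7
  rw [← gam_restrict hz, Measure.restrict_apply_univ, ← measure_inter_add_sdiff _ hm, add_comm]
  refine add_le_add h7 ((hA _ (tube_GA h5) _).trans (ENNReal.ofReal_le_ofReal ?_))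
  rwa [show -R.W q / 8 = -(1 / 8) * R.W q by ring]

/-- the Lojasiewicz inequality for the area from the one for the action -/
theorem Geo.loj_of_act {π : Par Q P} {R : RealFam m π} (G : Geo R) {f t : Q → ℝ} {F0 c : ℝ}
    (hc : 0 < c) (act : ∀ᶠ q in π.l, 0 ≤ f q + Real.exp (-c * R.W q) ∧
      ∫⁻ y in R.Ex q, ENNReal.ofReal
        (LagM (fun z => cx (m.F z)) (fun z => cx (R.X q z)) y).re ∂m.mu0
          ≤ ENNReal.ofReal (f q + Real.exp (-c * R.W q)))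
    (h0 : F0 ≤ m.mu0.real univ)
    (hf : ∀ c : ℝ, 0 < c → ∀ᶠ q in π.l, f q + Real.exp (-c * R.W q) ≤ F0 + t q) :
    ∀ᶠ q in π.l, gaussArea 2 {x | G.wq (q, x) = 0} univ
      ≤ gaussArea 2 S univ + ENNReal.ofReal (cH 2 * t q) := by
  have hH := cH_pos' 2
  set c' := min c (1 / 16) with hc'
  have h1 : 0 < c' := lt_min hc (by norm_num)
  have hfin : m.mu0 univ ≠ ⊤ := m.isArea.fin.measure_univ_lt_top.ne
  filter_upwards [G.area_le, act, hf (c' / 2) (by positivity),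
    R.W_top.eventually (ev_exp_le (half_lt_self h1) (1 + (cH 2 : ℝ)⁻¹)),
    R.W_top.eventually_ge_atTop 0] with q h2 h3 h4 h5 h6
  have e1 : Real.exp (-c * R.W q) ≤ Real.exp (-c' * R.W q) :=
    Real.exp_le_exp.2 (by nlinarith [min_le_left c (1 / 16)])
  have e2 : Real.exp (-(1 / 16) * R.W q) ≤ Real.exp (-c' * R.W q) :=
    Real.exp_le_exp.2 (by nlinarith [min_le_right c (1 / 16)])
  refine (h2.trans (add_le_add_left (mul_le_mul_right h3.2 _) _)).trans ?_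
  rw [← m.mu0_univ, ← ENNReal.ofReal_toReal hfin, ← ENNReal.ofReal_coe_nnreal,
    ← ENNReal.ofReal_mul hH.le, ← ENNReal.ofReal_mul hH.le,
    ← ENNReal.ofReal_add (mul_nonneg hH.le h3.1) (Real.exp_pos _).le]
  refine (ENNReal.ofReal_le_ofReal ?_).trans ENNReal.ofReal_add_le
  have h7 : (cH 2 : ℝ) * (Real.exp (-c' * R.W q) * (1 + (cH 2 : ℝ)⁻¹))
      = cH 2 * Real.exp (-c' * R.W q) + Real.exp (-c' * R.W q) := by field_simp
  have h8 := mul_le_mul_of_nonneg_left h5 hH.le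
  have h9 := mul_le_mul_of_nonneg_left (h4.trans (add_le_add_left h0 _)) hH.le
  have h10 := mul_le_mul_of_nonneg_left e1 hH.le
  rw [Measure.real] at h9
  linarith

/-- `Geo.lojSeq` with the Lojasiewicz inequality for the action as input -/
theorem Geo.lojSeq_of_act {R : RealFam m (seqPar P)} (G : Geo R) {Λ : Type*} [NormedAddCommGroup Λ]
    [NormedSpace ℝ Λ] [FiniteDimensional ℝ Λ] {e : Λ →ₗ[ℝ] (E3 → ℝ)} {lam : ℕ → P → Λ}
    {D : Set M} {R0 : ℝ} {k : ℕ} (e_cont : ∀ l, Continuous (e l))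
    (e_supp : ∀ l x, R0 ≤ ‖x‖ → e l x = 0) (D_bd : ∀ y ∈ D, y ∈ m.reg → ‖m.F y‖ ≤ R0)
    (e_D : ∀ l, ∀ y ∈ m.reg, y ∉ D → e l (m.F y) = 0)
    (eqn : ∀ᶠ q : ℕ × P in atTop ×ˢ 𝓝 0, ∀ y ∈ R.Ex q,
      (y ∈ D → ELM (fun z => cx (m.F z)) (fun z => cx (R.X q z)) y (cx (m.nu y))
        = (e (lam q.1 q.2) (m.F y) : ℝ)) ∧
      (y ∉ D → ∀ V, ELM (fun z => cx (m.F z)) (fun z => cx (R.X q z)) y V = 0))
    (lam_zero : Tendsto (fun q : ℕ × P => lam q.1 q.2) (atTop ×ˢ 𝓝 0) (𝓝 0))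
    (sl : ∀ ε : ℝ, 0 < ε → ∀ᶠ q : ℕ × P in atTop ×ˢ 𝓝 0,
      (R.W q)⁻¹ ^ k ≤ ε * ‖lam q.1 q.2‖ + 1 / ((q.1 : ℝ) + 1))
    {f : ℕ × P → ℝ} {F0 γ C' c : ℝ} (hγ : 1 < γ) (hc : 0 < c)
    (hf : ∀ c : ℝ, 0 < c → ∀ᶠ q : ℕ × P in atTop ×ˢ 𝓝 0, f q + Real.exp (-c * R.W q)
      ≤ F0 + C' * ‖lam q.1 q.2‖ ^ γ + 1 / ((q.1 : ℝ) + 1))
    (act : ∀ᶠ q : ℕ × P in atTop ×ˢ 𝓝 0, 0 ≤ f q + Real.exp (-c * R.W q) ∧
      ∫⁻ y in R.Ex q, ENNReal.ofReal
        (LagM (fun z => cx (m.F z)) (fun z => cx (R.X q z)) y).re ∂m.mu0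
          ≤ ENNReal.ofReal (f q + Real.exp (-c * R.W q)))
    (h0 : F0 ≤ m.mu0.real univ)
    (co : (∀ b, (∀ x, w x = 0 → G.v b x = 0) → b = 0) ∧
      (∀ l, (∀ x, w x = 0 → e l x = 0) → l = 0) ∧
      ∀ (u : E3 → ℝ) (l : Λ), MemLp u 2 (gaussArea 2 {x | w x = 0}) →
        (∀ ζ : E3 → ℝ, ContDiff ℝ 2 ζ → HasCompactSupport ζ →
          ∫ x, u x * stab w ζ x ∂(gaussArea 2 {x | w x = 0})
            = ∫ x, e l x * ζ x ∂(gaussArea 2 {x | w x = 0})) →
        ∃ b, u =ᵐ[gaussArea 2 {x | w x = 0}] G.v b) :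
    ∃ (η : ℕ → ℝ) (C'' : ℝ) (q : ℕ),
      IsLojSeq 2 G.w₀ (fun n a x => G.wq ((n, a), x)) G.v e lam η G.δ' C'' q := by
  have hH := cH_pos' 2
  have h1 : ∀ n : ℕ, (0 : ℝ) < 1 / ((n : ℝ) + 1) := fun n => by positivity
  refine ⟨fun n => (cH 2 + 1) * (1 / ((n : ℝ) + 1)), G.lojSeq (k := k) e_cont e_supp D_bd e_D eqn
    ?_ lam_zero (fun ε hε => (sl ε hε).mono fun q h => ?_) ⟨γ, cH 2 * C', hγ, ?_⟩ co⟩
  · simpa only [mul_zero] using
      (tendsto_one_div_add_atTop_nhds_zero_nat (𝕜 := ℝ)).const_mul ((cH 2 : ℝ) + 1)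
  · nlinarith [mul_pos hH (h1 q.1)]
  · refine (G.loj_of_act (t := fun q => C' * ‖lam q.1 q.2‖ ^ γ + 1 / ((q.1 : ℝ) + 1)) hc act h0
      fun c hc => (hf c hc).mono fun q h => by rwa [← add_assoc]).mono fun q h => h.trans ?_
    exact add_le_add_right (ENNReal.ofReal_le_ofReal (by nlinarith [h1 q.1])) _

end Vale.Agent.P218GE
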