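import Vale.Agent.P218GS.VF

/-! # P218, block GS: the Euler-Lagrange density and the defect of a distance function -/

open Set Filter Topology Metric Asymptotics
open scoped RealInnerProductSpace

set_option linter.unusedSectionVars false

namespace Vale.Agent.P218GE

open Vale.Agent.P218GA
open Vale.Agent.P218VA
open Vale.Agent.P272.K.LIN
open Vale.Agent.P218.H313 (rho rho_pos continuous_rho)

/-- the cofactor matrix, applied to a vector -/
noncomputable def cof (A : E3 →L[ℝ] E3) (v : E3) : E3 :=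
  v 0 • crs (A (EuclideanSpace.single 1 1)) (A (EuclideanSpace.single 2 1))
    + v 1 • crs (A (EuclideanSpace.single 2 1)) (A (EuclideanSpace.single 0 1))
    + v 2 • crs (A (EuclideanSpace.single 0 1)) (A (EuclideanSpace.single 1 1))

lemma crs_map (A : E3 →L[ℝ] E3) (a b : E3) : crs (A a) (A b) = cof A (crs a b) := by
  have hA : ∀ v : E3, A v = v 0 • A (EuclideanSpace.single 0 1) + v 1 • A (EuclideanSpace.single 1 1)
      + v 2 • A (EuclideanSpace.single 2 1) := fun v => by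
    conv_lhs => rw [E3_decomp v]
    simp
  rw [hA a, hA b]
  ext i
  fin_cases i <;> simp [crs, cof] <;> ring

lemma cof_smul (A : E3 →L[ℝ] E3) (c : ℝ) (v : E3) : cof A (c • v) = c • cof A v := by
  simp only [cof, PiLp.smul_apply, smul_eq_mul, smul_add, smul_smul]

lemma cof_id (v : E3) : cof (ContinuousLinearMap.id ℝ E3) v = v := by
  ext i
  fin_cases i <;> simp [crs, cof]

lemma continuous_crs : Continuous fun p : E3 × E3 => crs p.1 p.2 := by
  unfold crs
  refine (PiLp.continuous_toLp 2 _).comp (continuous_pi fun i => ?_)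
  fin_cases i <;> simp <;> fun_prop

lemma continuous_cof : Continuous fun p : (E3 →L[ℝ] E3) × E3 => cof p.1 p.2 := by
  have h : ∀ a b : E3, Continuous fun p : (E3 →L[ℝ] E3) × E3 => crs (p.1 a) (p.1 b) := fun a b =>
    continuous_crs.comp ((continuous_fst.clm_apply continuous_const).prodMk
      (continuous_fst.clm_apply continuous_const))
  have h' : ∀ i, Continuous fun p : (E3 →L[ℝ] E3) × E3 => p.2 i := fun i => by fun_prop
  exact (((h' 0).smul (h _ _)).add ((h' 1).smul (h _ _))).add ((h' 2).smul (h _ _))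

lemma sqrt_grm (a b : E3) : √(grm a b) = ‖crs a b‖ := by
  rw [← inner_crs_self, real_inner_self_eq_norm_sq, Real.sqrt_sq (norm_nonneg _)]

lemma sqrt_grm_map (A : E3 →L[ℝ] E3) {a b ν : E3} (hν : ‖ν‖ = 1) (ha : ⟪ν, a⟫ = 0)
    (hb : ⟪ν, b⟫ = 0) : √(grm (A a) (A b)) = ‖cof A ν‖ * √(grm a b) := by
  rw [sqrt_grm, sqrt_grm, crs_map, crs_par hν ha hb, cof_smul, norm_smul, norm_smul, hν, mul_one,
    mul_comm]

section chart
variable {D : Type*} [NormedAddCommGroup D] [NormedSpace ℝ D] {X : D → E3} {y d1 d2 : D}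
  {ω : E3 → ℝ} {δ C : ℝ}

theorem ELF_eq (h : IsTube ω δ C) (hX : ContDiffAt ℝ 2 X y) (h0 : ∀ᶠ z in 𝓝 y, ω (X z) = 0)
    (hg : 0 < grm (pd X d1 y) (pd X d2 y)) (V : E3) :
    ELF d1 d2 (fun z => cx (X z)) y (cx V)
      = (lagR d1 d2 X y * defect ω (X y) * ⟪gradient ω (X y), V⟫ : ℝ) := by
  have hd := hX.differentiableAt (by simp)
  have ha := inner_grad_pd (h.cd1.differentiable one_ne_zero _) hd h0 d1
  have hb := inner_grad_pd (h.cd1.differentiable one_ne_zero _) hd h0 d2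
  have hu := h.unit _ h0.self_of_nhds
  have h1 := h.PPF_eq hX h0 d1 d2
  have h2 := sq_inner_crs hu ha hb
  have h3 : ⟪crs (pd X d1 y) (pd X d2 y), V⟫
      = ⟪crs (pd X d1 y) (pd X d2 y), gradient ω (X y)⟫ * ⟪gradient ω (X y), V⟫ := by
    conv_lhs => rw [crs_par hu ha hb, real_inner_smul_left]
  rw [PPF] at h1
  rw [ELF, EL, h1, pd_cx hd, pd_cx hd, wt_cx, ar_cx, ← cx_crs, cx_dot, h3, lagR]
  norm_cast
  have h4 := Real.sqrt_pos.2 hg
  have h5 := Real.sq_sqrt hg.le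
  generalize √(grm (pd X d1 y) (pd X d2 y)) = g at h4 h5 ⊢
  generalize ⟪crs (pd X d1 y) (pd X d2 y), gradient ω (X y)⟫ = σ at h2 ⊢
  rw [← h5] at h2 ⊢
  field_simp
  rw [h2]

end chart

variable {S : Set E3} {w : E3 → ℝ} {δ C : ℝ} {ι κ M : Type} [TopologicalSpace M]
  [ChartedSpace E2 M] {Q P : Type} [TopologicalSpace Q] [NormedAddCommGroup P] [NormedSpace ℝ P]
  {m : Model S w δ C ι κ M} [Finite ι] [Finite κ] [T2Space M] [RSm E2 M] [CompactSpace M]

/-- the ratio of the Gaussian area elements -/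
noncomputable def jf (Φ : E3 → E3) (x ν : E3) : ℝ := rho (Φ x) / rho x * ‖cof (fderiv ℝ Φ x) ν‖

lemma rimm_comp {Φ : E3 → E3} (h1 : ContDiff ℝ 2 Φ) (h2 : ∀ x, Function.Injective (fderiv ℝ Φ x))
    {Ω : Set M} (hΩ : IsOpen Ω) (hs : Ω ⊆ m.reg) {X : M → E3} (hX : ∀ y ∈ Ω, Φ (m.F y) = X y) :
    RImm Ω X := by
  have h3 : ∀ y ∈ Ω, X =ᶠ[𝓝 y] fun z => Φ (m.F z) := fun y hy =>
    (hΩ.eventually_mem hy).mono fun z hz => (hX z hz).symm
  refine ⟨hΩ, fun y hy => CkAt.congr (fun e he hx => ?_) (h3 y hy), fun y hy e he hx => ?_⟩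
  · exact h1.contDiffAt.comp _ (m.rimm.ck y (hs hy) e he hx)
  · rw [(cX_congr hx (h3 y hy)).fderiv_eq]
    change Function.Injective (fderiv ℝ (fun z => Φ (cX e m.F z)) (e y))
    rw [fderiv_fun_comp _ (h1.differentiable (by simp) _)
      ((m.rimm.ck y (hs hy) e he hx).differentiableAt (by simp))]
    exact (h2 _).comp (m.rimm.inj y (hs hy) e he hx)

lemma lagR_comp {Φ : E3 → E3} (h1 : ContDiff ℝ 2 Φ) {X : M → E3} {y : M} (hy : y ∈ m.reg)
    (hX : X =ᶠ[𝓝 y] fun z => Φ (m.F z)) {e : OpenPartialHomeomorph M E2} (he : e ∈ atlas E2 M)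
    (hx : y ∈ e.source) :
    lagR u1 u2 (cX e X) (e y) = jf Φ (m.F y) (m.nu y) * lagR u1 u2 (cX e m.F) (e y) := by
  have e1 : cX e m.F (e y) = m.F y := by rw [cX, e.left_inv hx]
  have e2 : cX e X (e y) = Φ (m.F y) := by rw [cX, e.left_inv hx, hX.self_of_nhds]
  have e3 : ∀ v, pd (cX e X) v (e y) = fderiv ℝ Φ (m.F y) (pd (cX e m.F) v (e y)) := fun v => by
    rw [pd_congr (cX_congr hx hX), pd, pd, ← e1]
    change fderiv ℝ (fun z => Φ (cX e m.F z)) (e y) v = _
    rw [fderiv_fun_comp _ (h1.differentiable (by simp) _)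
      ((m.rimm.ck y hy e he hx).differentiableAt (by simp))]
    rfl
  have h2 := rho_pos (m.F y)
  rw [lagR, lagR, e1, e2, e3, e3, sqrt_grm_map _ (m.norm_nu hy) (m.inner_nu_pd he hy hx _)
    (m.inner_nu_pd he hy hx _), jf]
  field_simp

/-- **The Euler-Lagrange density is the defect of the distance function**, up to a factor -/
theorem ELM_eq {Φ : E3 → E3} (h1 : ContDiff ℝ 2 Φ) (h2 : ∀ x, Function.Injective (fderiv ℝ Φ x))
    {Ω : Set M} (hΩ : IsOpen Ω) (hs : Ω ⊆ m.reg) {X : M → E3} (hX : ∀ y ∈ Ω, Φ (m.F y) = X y)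
    {ω : E3 → ℝ} {δ' C' : ℝ} (hω : IsTube ω δ' C') (h0 : ∀ y ∈ Ω, ω (X y) = 0) {y : M}
    (hy : y ∈ Ω) : 0 < jf Φ (m.F y) (m.nu y) ∧
      LagM (fun z => cx (m.F z)) (fun z => cx (X z)) y = (jf Φ (m.F y) (m.nu y) : ℝ) ∧
      ∀ V, ELM (fun z => cx (m.F z)) (fun z => cx (X z)) y (cx V)
        = (jf Φ (m.F y) (m.nu y) * defect ω (X y) * ⟪gradient ω (X y), V⟫ : ℝ) := by
  have hc := chart_mem_atlas E2 y
  have hx := mem_chart_source E2 y
  have h3 := rimm_comp h1 h2 hΩ hs hX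
  have h4 := lagR_comp h1 (hs hy) ((hΩ.eventually_mem hy).mono fun z hz => (hX z hz).symm) hc hx
  have h5 := m.rimm.lag_pos (hs hy) hc hx
  have h6 := h3.lag_pos hy hc hx
  refine ⟨by rwa [h4, mul_pos_iff_of_pos_right h5] at h6, ?_, fun V => ?_⟩
  · rw [(m.rimm.mono hΩ hs).lagM h3 hy hc hx, h4, mul_div_cancel_right₀ _ h5.ne']
  · have h7 := ELF_eq hω (h3.ck y hy _ hc hx)
      (((tendsto_symm hx).eventually (hΩ.eventually_mem hy)).mono fun z hz => h0 _ hz)
      (grm_pos (h3.inj y hy _ hc hx) indep_u) V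
    have e2 : cX (chartAt E2 y) X (chartAt E2 y y) = X y := by
      rw [cX, (chartAt E2 y).left_inv hx]
    rw [ELM, den, m.rimm.lag (hs hy) hc hx, div_eq_iff (by exact_mod_cast h5.ne')]
    refine h7.trans ?_
    rw [h4, e2]
    push_cast
    ring

end Vale.Agent.P218GE
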