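import Vale.Agent.P218GS.Err

/-! # P218, block GS: the geometric family is a Lojasiewicz sequence -/

open MeasureTheory Set Filter Topology Metric
open scoped RealInnerProductSpace

set_option linter.unusedSectionVars false

namespace Vale.Agent.P218GE

open Vale.Agent.P218GA hiding IsTube defect
open Vale.Agent.P218VA
open Vale.Agent.P218DY (IsTube defect IsLojSeq)
open Vale.Agent.P272.K.LIN
open Vale.Agent.P218.H63 (gaussArea stab hessSq)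

lemma stab_congr_w {w w' ζ : E3 → ℝ} {x : E3} (h : w =ᶠ[𝓝 x] w') : stab w ζ x = stab w' ζ x := by
  have h1 : gradient w =ᶠ[𝓝 x] gradient w' := h.gradient
  simp only [stab, hessSq, h1.fderiv_eq, h1.eq_of_nhds]

lemma ae_gaussArea {w : E3 → ℝ} (hw : Continuous w) :
    ∀ᵐ x ∂(gaussArea 2 {x | w x = 0}), w x = 0 :=
  (withDensity_absolutelyContinuous _ _).ae_le (ae_restrict_mem (measurableSet_zero hw))

variable {S : Set E3} {w : E3 → ℝ} {δ C : ℝ} {ι κ M : Type} [TopologicalSpace M]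
  [ChartedSpace E2 M] {P : Type} [NormedAddCommGroup P] [NormedSpace ℝ P]
  {m : Model S w δ C ι κ M} [Finite ι] [Finite κ] [T2Space M] [RSm E2 M] [CompactSpace M]
  {R : RealFam m (seqPar P)} (G : Geo R)
  {Λ : Type*} [NormedAddCommGroup Λ] [NormedSpace ℝ Λ] [FiniteDimensional ℝ Λ]

/-- **The geometric family is a Lojasiewicz sequence.** -/
theorem Geo.lojSeq {e : Λ →ₗ[ℝ] (E3 → ℝ)} {lam : ℕ → P → Λ} {η : ℕ → ℝ} {D : Set M} {R0 : ℝ}
    {k : ℕ} (e_cont : ∀ l, Continuous (e l)) (e_supp : ∀ l x, R0 ≤ ‖x‖ → e l x = 0)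
    (D_bd : ∀ y ∈ D, y ∈ m.reg → ‖m.F y‖ ≤ R0)
    (e_D : ∀ l, ∀ y ∈ m.reg, y ∉ D → e l (m.F y) = 0)
    (eqn : ∀ᶠ q : ℕ × P in atTop ×ˢ 𝓝 0, ∀ y ∈ R.Ex q,
      (y ∈ D → ELM (fun z => cx (m.F z)) (fun z => cx (R.X q z)) y (cx (m.nu y))
        = (e (lam q.1 q.2) (m.F y) : ℝ)) ∧
      (y ∉ D → ∀ V, ELM (fun z => cx (m.F z)) (fun z => cx (R.X q z)) y V = 0))
    (eta_zero : Tendsto η atTop (𝓝 0))
    (lam_zero : Tendsto (fun q : ℕ × P => lam q.1 q.2) (atTop ×ˢ 𝓝 0) (𝓝 0))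
    (sl : ∀ ε : ℝ, 0 < ε → ∀ᶠ q : ℕ × P in atTop ×ˢ 𝓝 0,
      (R.W q)⁻¹ ^ k ≤ ε * ‖lam q.1 q.2‖ + η q.1)
    (loj : ∃ γ C' : ℝ, 1 < γ ∧ ∀ᶠ q : ℕ × P in atTop ×ˢ 𝓝 0,
      gaussArea 2 {x | G.wq (q, x) = 0} univ
        ≤ gaussArea 2 S univ + ENNReal.ofReal (C' * ‖lam q.1 q.2‖ ^ γ + η q.1))
    (co : (∀ b, (∀ x, w x = 0 → G.v b x = 0) → b = 0) ∧
      (∀ l, (∀ x, w x = 0 → e l x = 0) → l = 0) ∧
      ∀ (u : E3 → ℝ) (l : Λ), MemLp u 2 (gaussArea 2 {x | w x = 0}) →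
        (∀ ζ : E3 → ℝ, ContDiff ℝ 2 ζ → HasCompactSupport ζ →
          ∫ x, u x * stab w ζ x ∂(gaussArea 2 {x | w x = 0})
            = ∫ x, e l x * ζ x ∂(gaussArea 2 {x | w x = 0})) →
        ∃ b, u =ᵐ[gaussArea 2 {x | w x = 0}] G.v b) :
    ∃ (C'' : ℝ) (q : ℕ),
      IsLojSeq 2 G.w₀ (fun n a x => G.wq ((n, a), x)) G.v e lam η G.δ' C'' q := by
  obtain ⟨B, hB, hb⟩ := exists_e_bound e_cont e_supp
  refine ⟨max G.C' B, 2 * k + 2, tube_mono G.tube0 (le_max_left _ _),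
    G.tube.mono fun _ h => tube_mono h (le_max_left _ _), G.cont, G.diff, G.conv, G.v_cont, e_cont,
    fun l x => (hb l x).trans ?_, eta_zero, lam_zero, fun ε hε => ?_, ?_,
    fun b h => co.1 b fun x hx => h x ((G.zero0 x).2 hx),
    fun l h => co.2.1 l fun x hx => h x ((G.zero0 x).2 hx), ?_⟩
  · refine mul_le_mul_of_nonneg_right ((le_max_right G.C' B).trans (le_mul_of_one_le_right
      (hB.trans (le_max_right _ _)) (one_le_pow₀ (le_add_of_nonneg_right (norm_nonneg _)))))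
      (norm_nonneg _)
  · exact G.err (lam := fun q => lam q.1 q.2) (η := fun q => η q.1) e_supp
      (fun _ => G.err_Ex e_cont e_supp D_bd e_D eqn) sl hε
  · rw [G.zero_eq, ← m.S_eq]
    exact loj
  · rw [G.zero_eq]
    refine fun u l hu h => co.2.2 u l hu fun ζ h1 h2 => ?_
    rw [← h ζ h1 h2]
    refine integral_congr_ae ((ae_gaussArea m.tube.smooth.continuous).mono fun x hx => ?_)
    simp only [stab_congr_w (G.eq_w hx)]

end Vale.Agent.P218GE
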