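import Vale.Agent.P218GS.Area
import Vale.Agent.P218LB.Book
import Vale.Agent.P218ND.Brg3
import Vale.Agent.P218DY.Final
import Vale.Agent.P218GA.Exists
import Vale.Agent.P218ST.Defs

/-! # P218, block GS: reduction of the main theorem to the static construction -/

open MeasureTheory Set Filter Topology Metric Module
open scoped RealInnerProductSpace ContDiff

set_option linter.unusedSectionVars false

namespace Vale.Agent.P218GE

open Vale.Agent.P218GA hiding IsTube defect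
open Vale.Agent.P218VA
open Vale.Agent.P218DY (IsLojSeq unique_of_lojSeq)
open Vale.Agent.P218ST (UniqueModel Main)
open Vale.Agent.P218SQ (Pt LojOut ofReal)
open Vale.Agent.P218LB (lvl absorb)
open Vale.Agent.P218ND (LM LM_congr co9_M)
open Vale.Agent.P272.K.LIN

theorem uniqueModel_of_lojSeq {P Λ : Type*} [NormedAddCommGroup P] [NormedSpace ℝ P]
    [FiniteDimensional ℝ P] [NormedAddCommGroup Λ] [NormedSpace ℝ Λ] [FiniteDimensional ℝ Λ]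
    {w₀ : E3 → ℝ} {w : ℕ → P → E3 → ℝ} {v : P →ₗ[ℝ] (E3 → ℝ)} {e : Λ →ₗ[ℝ] (E3 → ℝ)}
    {lam : ℕ → P → Λ} {η : ℕ → ℝ} {δ C : ℝ} {q : ℕ} (h : IsLojSeq 2 w₀ w v e lam η δ C q) :
    UniqueModel {x | w₀ x = 0} := by
  rintro μ hμ h0 x₀ t₀ ht ⟨ν, h1, h2⟩
  have h3 := unique_of_lojSeq two_pos (by simp) h hμ h0 x₀ ht ⟨ν, h1, h2⟩
  exact ⟨h3, fun ν' h4 => (h3 ν' ν h4 h1 _ (by norm_num)).trans h2⟩

variable {S : Set E3} {w : E3 → ℝ} {δ C : ℝ} {ι κ M : Type} [TopologicalSpace M]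
  [ChartedSpace E2 M] [Fintype ι] [Finite κ] [T2Space M] [RSm E2 M] [CompactSpace M]
  [MeasurableSpace M] [BorelSpace M]

/-- Everything the static construction has to deliver: the real family with parameters
`(a, y)`, the multipliers, the action, and the linear theory. -/
structure Static (m : Model S w δ C ι κ M) (τ Λ : Type) [Fintype τ] [NormedAddCommGroup Λ]
    [NormedSpace ℝ Λ] where
  /-- the real family -/
  R : RealFam m (seqPar ((ι → ℝ) × (τ → ℝ)))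
  /-- the sources -/
  e : Λ →ₗ[ℝ] (E3 → ℝ)
  /-- the multipliers -/
  lam : ℕ → (ι → ℝ) × (τ → ℝ) → Λ
  /-- the deep core -/
  D : Set M
  /-- a radius -/
  R0 : ℝ
  /-- the action -/
  f : (ι → ℝ) → Pt ι τ → ℂ
  /-- the normal velocities -/
  u : (ι → ℝ) × (τ → ℝ) → M → ℝ
  W_eq : ∀ q, R.W q = lvl q.1 q.2
  e_cont : ∀ l, Continuous (e l)
  e_supp : ∀ l x, R0 ≤ ‖x‖ → e l x = 0
  D_bd : ∀ y ∈ D, y ∈ m.reg → ‖m.F y‖ ≤ R0
  e_D : ∀ l, ∀ y ∈ m.reg, y ∉ D → e l (m.F y) = 0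
  eqn : ∀ᶠ q : ℕ × ((ι → ℝ) × (τ → ℝ)) in atTop ×ˢ 𝓝 0, ∀ y ∈ R.Ex q,
    (y ∈ D → ELM (fun z => cx (m.F z)) (fun z => cx (R.X q z)) y (cx (m.nu y))
      = (e (lam q.1 q.2) (m.F y) : ℝ)) ∧
    (y ∉ D → ∀ V, ELM (fun z => cx (m.F z)) (fun z => cx (R.X q z)) y V = 0)
  lam_zero : Tendsto (fun q : ℕ × ((ι → ℝ) × (τ → ℝ)) => lam q.1 q.2) (atTop ×ˢ 𝓝 0) (𝓝 0)
  loj : LojOut f
  grad : ∃ C₀ : ℝ, ∀ᶠ q : ℕ × ((ι → ℝ) × (τ → ℝ)) in atTop ×ˢ 𝓝 0,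
    ‖fderiv ℂ (f fun _ => lvl q.1 q.2) (ofReal q.2)‖ ≤ C₀ * ‖lam q.1 q.2‖
  act : ∃ c : ℝ, 0 < c ∧ ∀ᶠ q : ℕ × ((ι → ℝ) × (τ → ℝ)) in atTop ×ˢ 𝓝 0,
    0 ≤ (f (fun _ => lvl q.1 q.2) (ofReal q.2)).re + Real.exp (-c * lvl q.1 q.2) ∧
      ∫⁻ y in R.Ex q, ENNReal.ofReal
        (LagM (fun z => cx (m.F z)) (fun z => cx (R.X q z)) y).re ∂m.mu0
          ≤ ENNReal.ofReal ((f (fun _ => lvl q.1 q.2) (ofReal q.2)).re
            + Real.exp (-c * lvl q.1 q.2))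
  lim : ∀ ε : ℝ, 0 < ε → ∃ᶠ W : ℝ in atTop, (f (fun _ => W) 0).re ≤ m.mu0.real univ + ε
  lin : ∀ y ∈ m.reg, ∃ LX : (ι → ℝ) × (τ → ℝ) →L[ℝ] E3,
    LinP (seqPar ((ι → ℝ) × (τ → ℝ))) (fun q => R.X q y) LX ∧ ∀ b, u b y = -⟪m.nu y, LX b⟫
  rank : finrank ℝ ((ι → ℝ) × (τ → ℝ)) = finrank ℝ Λ
  l2 : ∀ b, MemLp (u b) 2 m.mu0
  vel : ∀ b, ∃ l, ∀ x ∈ m.reg, CkAt 2 (u b) x ∧ LM m (u b) x = e l (m.F x)
  pair : ∀ b, (∀ l, ∫ x, u b x * e l (m.F x) ∂m.mu0 = 0) → b = 0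
  solv : ∀ g : E3 → ℝ, ContDiff ℝ ∞ g → HasCompactSupport g → ∃ (U : M → ℝ) (l : Λ),
    (∀ x ∈ m.reg, CkAt 2 U x ∧ LM m U x = g (m.F x) + e l (m.F x)) ∧ MemLp U 2 m.mu0

/-- **The static construction and the geometric family give uniqueness.** -/
theorem Static.uniqueModel {m : Model S w δ C ι κ M} {τ Λ : Type} [Fintype τ]
    [NormedAddCommGroup Λ] [NormedSpace ℝ Λ] [FiniteDimensional ℝ Λ] (T : Static m τ Λ)
    (G : Geo T.R) : UniqueModel S := by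
  obtain ⟨C₀, h1⟩ := T.grad
  obtain ⟨F0, γ, C', k, hγ, -, h2, h3, h4⟩ := absorb T.loj h1
  obtain ⟨c, hc, h5⟩ := T.act
  obtain ⟨B, -, hB⟩ := exists_e_bound T.e_cont T.e_supp
  have := m.isArea.fin
  have hv : ∀ b, ∀ y ∈ m.reg, G.v b (m.F y) = T.u b y := fun b y hy => by
    obtain ⟨LX, a1, a2⟩ := T.lin y hy
    rw [G.v_pt hy a1, a2]
  have hae : ∀ b, (fun y => G.v b (m.F y)) =ᵐ[m.mu0] T.u b := fun b => m.ae_reg.mono (hv b)
  have hev : ∀ b, ∀ y ∈ m.reg, (fun y => G.v b (m.F y)) =ᶠ[𝓝 y] T.u b := fun b y hy =>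
    (m.isOpen_reg.eventually_mem hy).mono (hv b)
  have h0 : F0 ≤ m.mu0.real univ := le_of_forall_pos_le_add fun ε hε =>
    le_of_tendsto_of_frequently ((Complex.continuous_re.tendsto _).comp h2) (T.lim ε hε)
  have he : ∀ l, MemLp (fun x => T.e l (m.F x)) 2 m.mu0 := fun l => by
    refine MemLp.of_bound ?_ _ (Eventually.of_forall fun x => hB l _)
    rw [← Measure.restrict_eq_self_of_ae_mem m.ae_reg]
    exact ((T.e_cont l).comp_continuousOn m.rimm.cont).aestronglyMeasurable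
      m.isOpen_reg.measurableSet
  obtain ⟨η, C'', q, h⟩ := G.lojSeq_of_act (k := k) T.e_cont T.e_supp T.D_bd T.e_D T.eqn T.lam_zero
    (by simpa only [T.W_eq] using h3) hγ hc (by simpa only [T.W_eq] using h4)
    (by simpa only [T.W_eq] using h5) h0
    (co9_M m T.rank (fun b => (T.l2 b).ae_eq (hae b).symm) he
      (fun b => (T.vel b).imp fun l hl x hx =>
        ⟨(hl x hx).1.congr (hev b x hx), (LM_congr m (hev b x hx)).trans (hl x hx).2⟩)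
      (fun b hb => T.pair b fun l => by
        rw [← hb l]
        exact integral_congr_ae ((hae b).mono fun x hx => by simp only [hx])) T.solv)
  rw [m.S_eq, ← G.zero_eq]
  exact uniqueModel_of_lojSeq h

/-- **Reduction of the main theorem.** -/
theorem main_of_static (W₀ : Set E3 → ℝ)
    (h : ∀ (S : Set E3) (w : E3 → ℝ) (δ C : ℝ) (k l : ℕ) (M : Type) [TopologicalSpace M]
      [ChartedSpace E2 M] [T2Space M] [CompactSpace M] [RSm E2 M] [MeasurableSpace M]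
      [BorelSpace M] (m : Model S w δ C (Fin k) (Fin l) M), W₀ S ≤ m.w0 → UniqueModel S) :
    Main := by
  intro S w δ C h1 h2 h3
  obtain ⟨k, l, M, _, _, _, _, _, m, hm⟩ := exists_model_ge h1 h2 h3 (W₀ S)
  borelize M
  exact h S w δ C k l M m hm

end Vale.Agent.P218GE
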