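import Vale.Agent.P218GE.RF

/-! # P218, block GS: the velocities of the geometric family, and uniform convergence -/

open Set Filter Topology Metric Asymptotics
open scoped RealInnerProductSpace

set_option linter.unusedSectionVars false

namespace Vale.Agent.P218GE

open Vale.Agent.P218GA
open Vale.Agent.P218VA (E2)

section lin
variable {Q P X F : Type} [TopologicalSpace Q] [NormedAddCommGroup P] [NormedSpace ℝ P]
  [NormedAddCommGroup X] [NormedSpace ℝ X] [NormedAddCommGroup F] [NormedSpace ℝ F]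

/-- `L` is the derivative in the parameter of a function of the parameter alone -/
def LinP (π : Par Q P) (c : Q → F) (L : P →L[ℝ] F) : Prop :=
  (fun q => c q - c (π.σ q) - L (π.α q)) =o[π.l] π.s

lemma tendsto_at {Z : Type} [TopologicalSpace Z] (l : Filter Q) (x : Z) :
    Tendsto (fun q => (q, x)) l (l ×ˢ 𝓝 x) := tendsto_id.prodMk tendsto_const_nhds

lemma Lin.pt {π : Par Q P} {f : Q × X → F} {x : X} {L : P →L[ℝ] F} (h : Lin π f x L) :
    LinP π (fun q => f (q, x)) L :=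
  IsLittleO.comp_tendsto h (tendsto_at π.l x)

lemma LinP.lin {π : Par Q P} {c : Q → F} {L : P →L[ℝ] F} (h : LinP π c L) (x : X) :
    Lin π (fun z : Q × X => c z.1) x L :=
  IsLittleO.comp_tendsto h tendsto_fst

lemma seq_norm_le {T : P →L[ℝ] F} {ε : ℝ} (hε : 0 ≤ ε)
    (h : ∀ᶠ q : ℕ × P in atTop ×ˢ 𝓝 0, ‖T q.2‖ ≤ ε * ‖q.2‖) : ‖T‖ ≤ ε := by
  obtain ⟨pa, ha, pb, hb, h⟩ := eventually_prod_iff.1 h
  obtain ⟨n, hn⟩ := ha.exists
  exact T.opNorm_le_of_nhds_zero hε (hb.mono fun a h' => h hn h')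

lemma LinP.bound {c : ℕ × P → F} {L : P →L[ℝ] F} (h : LinP (seqPar P) c L) {ε : ℝ} (hε : 0 < ε) :
    ∀ᶠ q : ℕ × P in atTop ×ˢ 𝓝 0, ‖c q - c (q.1, 0) - L q.2‖ ≤ ε * ‖q.2‖ := by
  simpa only [seqPar, norm_norm] using IsLittleO.bound h hε

lemma LinP.norm_le {c : ℕ × P → F} {L L' : P →L[ℝ] F} (h : LinP (seqPar P) c L) {ε : ℝ}
    (hε : 0 ≤ ε) (h' : ∀ᶠ q : ℕ × P in atTop ×ˢ 𝓝 0, ‖c q - c (q.1, 0) - L' q.2‖ ≤ ε * ‖q.2‖) :
    ‖L - L'‖ ≤ ε := by
  refine le_of_forall_pos_le_add fun τ hτ => seq_norm_le (by positivity) ?_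
  filter_upwards [h', h.bound hτ] with q h1 h2
  have e : (L - L') q.2 = (c q - c (q.1, 0) - L' q.2) - (c q - c (q.1, 0) - L q.2) := by
    rw [sub_apply]; abel
  rw [e, add_mul]
  exact (norm_sub_le _ _).trans (add_le_add h1 h2)

lemma LinP.unique {c : ℕ × P → F} {L L' : P →L[ℝ] F} (h : LinP (seqPar P) c L)
    (h' : LinP (seqPar P) c L') : L = L' := by
  rw [← sub_eq_zero, ← norm_le_zero_iff]
  exact le_of_forall_pos_le_add fun ε hε => by
    rw [zero_add]; exact h.norm_le hε.le (h'.bound hε)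

lemma Lin.bound {f : (ℕ × P) × X → F} {x : X} {L : P →L[ℝ] F} (h : Lin (seqPar P) f x L) {ε : ℝ}
    (hε : 0 < ε) : ∀ᶠ z : (ℕ × P) × X in (atTop ×ˢ 𝓝 0) ×ˢ 𝓝 x,
      ‖f z - f ((z.1.1, 0), z.2) - L z.1.2‖ ≤ ε * ‖z.1.2‖ := by
  simpa only [seqPar, norm_norm] using IsLittleO.bound h hε

/-- the derivative in the parameter depends continuously on the point -/
lemma continuous_lin {f : (ℕ × P) × X → F} {L : X → P →L[ℝ] F}
    (h : ∀ x, Lin (seqPar P) f x (L x)) : Continuous L := by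
  refine continuous_iff_continuousAt.2 fun x₀ => Metric.continuousAt_iff'.2 fun ε hε => ?_
  obtain ⟨pa, ha, pb, hb, hab⟩ := eventually_prod_iff.1 ((h x₀).bound (half_pos hε))
  filter_upwards [hb] with x hx
  rw [dist_eq_norm]
  exact ((h x).pt.norm_le (half_pos hε).le (ha.mono fun q hq => hab hq hx)).trans_lt
    (half_lt_self hε)

lemma diff_of_lin {f : (ℕ × P) × X → F} {L : X → P →L[ℝ] F} (h : ∀ x, Lin (seqPar P) f x (L x))
    {K : Set X} (hK : IsCompact K) {ε : ℝ} (hε : 0 < ε) :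
    ∀ᶠ q : ℕ × P in atTop ×ˢ 𝓝 0, ∀ x ∈ K,
      ‖f (q, x) - f ((q.1, 0), x) - L x q.2‖ ≤ ε * ‖q.2‖ := by
  refine ev_compact hK (p := fun z : (ℕ × P) × X =>
    ‖f z - f ((z.1.1, 0), z.2) - L z.2 z.1.2‖ ≤ ε * ‖z.1.2‖) fun x₀ _ => ?_
  have h1 : ∀ᶠ x in 𝓝 x₀, ‖L x - L x₀‖ ≤ ε / 2 :=
    (tendsto_iff_norm_sub_tendsto_zero.1 (continuous_lin h).continuousAt).eventually_le_const
      (half_pos hε)
  filter_upwards [(h x₀).bound (half_pos hε), tendsto_snd.eventually h1] with z h2 h3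
  have e : f z - f ((z.1.1, 0), z.2) - L z.2 z.1.2
      = (f z - f ((z.1.1, 0), z.2) - L x₀ z.1.2) - (L z.2 - L x₀) z.1.2 := by
    rw [sub_apply]; abel
  have h4 := (L z.2 - L x₀).le_of_opNorm_le h3 z.1.2
  rw [e]
  refine (norm_sub_le _ _).trans ?_
  linarith

lemma close_of_D0 {π : Par Q P} {f : Q × X → F} {f₀ : X → F} {K : Set X} (hK : IsCompact K)
    (h : ∀ x ∈ K, D0 π f f₀ x) {ε : ℝ} (hε : 0 < ε) :
    ∀ᶠ q in π.l, ∀ x ∈ K, ‖f (q, x) - f₀ x‖ ≤ ε :=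
  ev_compact hK (p := fun z : Q × X => ‖f z - f₀ z.2‖ ≤ ε) fun x hx =>
    ev_close (h x hx).tendsto (h x hx).cont0 hε

lemma cont_of_D0 {f : (ℕ × P) × X → F} {f₀ : X → F} {K : Set X} (hK : IsCompact K)
    (h : ∀ x ∈ K, D0 (seqPar P) f f₀ x) :
    ∀ᶠ q : ℕ × P in atTop ×ˢ 𝓝 0, ∀ ε : ℝ, 0 < ε → ∀ᶠ a in 𝓝 q.2, ∀ x ∈ K,
      ‖f ((q.1, a), x) - f (q, x)‖ ≤ ε := by
  filter_upwards [ev_compact hK (p := ContinuousAt f) fun x hx => (h x hx).cont] with q hq ε hε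
  refine ev_compact hK (p := fun z : P × X => ‖f ((q.1, z.1), z.2) - f (q, z.2)‖ ≤ ε)
    fun x hx => ?_
  refine ev_close (f := fun z : P × X => f ((q.1, z.1), z.2)) (f₀ := fun y => f (q, y)) ?_ ?_ hε
  · rw [← nhds_prod_eq]
    exact (hq x hx).tendsto.comp
      (((continuous_const.prodMk continuous_fst).prodMk continuous_snd).tendsto (q.2, x))
  · exact ContinuousAt.comp (g := f) (hq x hx) (continuousAt_const.prodMk continuousAt_id)

end lin

variable {S : Set E3} {w : E3 → ℝ} {δ C : ℝ} {ι κ M : Type} [TopologicalSpace M]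
  [ChartedSpace E2 M] {Q P : Type} [TopologicalSpace Q] [NormedAddCommGroup P] [NormedSpace ℝ P]
  {m : Model S w δ C ι κ M}

namespace Geo

section gen
variable {π : Par Q P} {R : RealFam m π} (G : Geo R)

lemma dgrad (x : E3) :
    D1 π (fun z => gradient (sec G.wq z.1) z.2) (gradient G.w₀) x := (G.d2 x).d1.map (riesz E3)

lemma eq_w {x : E3} (hx : w x = 0) : G.w₀ =ᶠ[𝓝 x] w :=
  G.eq0 x (by rw [(G.zero0 x).2 hx, abs_zero]; exact G.tube0.pos)

lemma grad_eq {x : E3} (hx : w x = 0) : gradient G.w₀ x = gradient w x :=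
  (G.eq_w hx).gradient_eq

lemma zero_eq : {x | G.w₀ x = 0} = {x | w x = 0} := Set.ext G.zero0

lemma conv (r ε : ℝ) (hε : 0 < ε) : ∀ᶠ q in π.l, ∀ x, ‖x‖ ≤ r →
    |G.wq (q, x) - G.w₀ x| ≤ ε ∧ ‖gradient (sec G.wq q) x - gradient G.w₀ x‖ ≤ ε ∧
      ‖fderiv ℝ (gradient (sec G.wq q)) x - fderiv ℝ (gradient G.w₀) x‖ ≤ ε := by
  have hK := isCompact_closedBall (0 : E3) r
  have h3 := ev_compact hK (l := π.l) (p := fun z : Q × E3 =>
    ‖fderiv ℝ (gradient (sec G.wq z.1)) z.2 - fderiv ℝ (gradient G.w₀) z.2‖ ≤ ε) fun x _ =>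
      ev_close (G.dgrad x).lim ((G.dgrad x).cd0.continuousAt_fderiv one_ne_zero) hε
  filter_upwards [close_of_D0 hK (fun x _ => (G.d2 x).toD0) hε,
    close_of_D0 hK (fun x _ => (G.dgrad x).toD0) hε, h3] with q h1 h2 h3 x hx
  have hx' : x ∈ closedBall (0 : E3) r := mem_closedBall_zero_iff.2 hx
  exact ⟨h1 x hx', h2 x hx', h3 x hx'⟩

/-- the derivative of the distance functions in the parameter -/
noncomputable def L (x : E3) : P →L[ℝ] ℝ := (G.d2 x).lin.choose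

lemma lin (x : E3) : Lin π G.wq x (G.L x) := (G.d2 x).lin.choose_spec

/-- the velocities -/
noncomputable def v : P →ₗ[ℝ] (E3 → ℝ) where
  toFun b x := G.L x b
  map_add' _ _ := funext fun _ => map_add _ _ _
  map_smul' _ _ := funext fun _ => map_smul _ _ _

lemma v_apply (b : P) (x : E3) : G.v b x = G.L x b := rfl

end gen

variable {R : RealFam m (seqPar P)} (G : Geo R)

lemma v_cont (b : P) : Continuous (G.v b) := (continuous_lin G.lin).clm_apply continuous_const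

lemma diff (r ε : ℝ) (hε : 0 < ε) : ∀ᶠ q : ℕ × P in atTop ×ˢ 𝓝 0, ∀ x, ‖x‖ ≤ r →
    |G.wq (q, x) - G.wq ((q.1, 0), x) - G.v q.2 x| ≤ ε * ‖q.2‖ :=
  (diff_of_lin G.lin (isCompact_closedBall (0 : E3) r) hε).mono fun _ h x hx =>
    h x (mem_closedBall_zero_iff.2 hx)

lemma cont (r : ℝ) : ∀ᶠ q : ℕ × P in atTop ×ˢ 𝓝 0, ∀ ε : ℝ, 0 < ε → ∀ᶠ a in 𝓝 q.2, ∀ x,
    ‖x‖ ≤ r → |G.wq ((q.1, a), x) - G.wq (q, x)| ≤ ε :=
  (cont_of_D0 (isCompact_closedBall (0 : E3) r) fun x _ => (G.d2 x).toD0).mono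
    fun _ h ε hε => (h ε hε).mono fun _ h x hx => h x (mem_closedBall_zero_iff.2 hx)

end Geo

end Vale.Agent.P218GE
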