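import Vale.Agent.P218GS.V
import Vale.Agent.P218GA.ModelB
import Vale.Agent.P218VA.Pol

/-! # P218, block GS: the exact part of the model, and the velocities on the shrinker -/

open Set Filter Topology Metric Asymptotics
open scoped RealInnerProductSpace

set_option linter.unusedSectionVars false

namespace Vale.Agent.P218GE

open Vale.Agent.P218GA
open Vale.Agent.P218VA (E2 exists_pol)

variable {S : Set E3} {w : E3 → ℝ} {δ C : ℝ} {ι κ M : Type} [TopologicalSpace M]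
  [ChartedSpace E2 M] {Q P : Type} [TopologicalSpace Q] [NormedAddCommGroup P] [NormedSpace ℝ P]
  {m : Model S w δ C ι κ M}

lemma norm_F_pt (j : ι ⊕ κ) {p : ℝ × ℝ} (hp : m.w0 < p.1) : ‖m.F (pt m j p)‖ ^ 2 = 4 * p.1 :=
  m.norm_F_pol j hp

lemma pt_mem_reg (j : ι ⊕ κ) {p : ℝ × ℝ} (hp : m.w0 < p.1) : pt m j p ∈ m.reg :=
  m.pol_mem_reg j hp

/-- a regular point lies in the core or on an end -/
lemma reg_cases {y : M} (hy : y ∈ m.reg) :
    ‖m.F y‖ ^ 2 ≤ 4 * m.w0 ∨ ∃ j p, m.w0 < p.1 ∧ y = pt m j p := by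
  by_cases h : ∀ j, y ∉ (m.φ j).source
  · exact .inl (m.core y h)
  · push Not at h
    obtain ⟨j, hj⟩ := h
    have h0 : m.φ j y ≠ 0 := fun h0 => hy j (by rw [← h0, (m.φ j).left_inv hj])
    obtain ⟨θ, -, hθ⟩ := exists_pol h0
    have h1 := (m.φ j).map_source hj
    rw [m.target, mem_ball_zero_iff, ← Real.log_lt_iff_lt_exp (norm_pos_iff.2 h0)] at h1
    exact .inr ⟨j, (-Real.log ‖m.φ j y‖, θ), by linarith, by
      rw [pt, hθ, (m.φ j).left_inv hj]⟩

section gen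
variable {π : Par Q P} (R : RealFam m π)

lemma RealFam.mem_Ex {q : Q} {y : M} (hy : y ∈ m.reg) (h0 : 4 * m.w0 < R.W q)
    (h1 : ‖m.F y‖ ^ 2 < R.W q) : y ∈ R.Ex q := by
  refine ⟨hy, fun i p hp h => ?_⟩
  rw [h, norm_F_pt _ (by linarith)] at h1
  linarith

lemma RealFam.ev_Ex (r : ℝ) : ∀ᶠ q in π.l, ∀ y ∈ m.reg, ‖m.F y‖ ≤ r → y ∈ R.Ex q := by
  filter_upwards [R.W_top.eventually_gt_atTop (4 * m.w0), R.W_top.eventually_gt_atTop (r ^ 2)]
    with q h0 h1 y hy h2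
  exact R.mem_Ex hy h0 ((pow_le_pow_left₀ (norm_nonneg _) h2 2).trans_lt h1)

lemma RealFam.isOpen_Ex [Finite ι] [Finite κ] [T2Space M] {q : Q} (h0 : 4 * m.w0 < R.W q) :
    IsOpen (R.Ex q) := by
  have h1 : ∀ i, closedBall (0 : E2) (Real.exp (-(R.W q / 4))) ⊆ (m.φ (.inl i)).target := by
    intro i
    rw [m.target]
    exact closedBall_subset_ball (Real.exp_lt_exp.2 (by linarith))
  have h2 : R.Ex q = m.reg ∩
      (⋃ i, (m.φ (.inl i)).symm '' closedBall (0 : E2) (Real.exp (-(R.W q / 4))))ᶜ := by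
    ext y
    refine and_congr_right fun hy => ?_
    simp only [mem_compl_iff, mem_iUnion, not_exists]
    refine forall_congr' fun i => ⟨fun h ⟨z, hz, e⟩ => ?_, fun h p hp e => h ⟨pol p, ?_, e.symm⟩⟩
    · have h3 : z ≠ 0 := fun h3 => hy (.inl i) (by rw [← e, h3])
      obtain ⟨θ, -, hθ⟩ := exists_pol h3
      rw [mem_closedBall_zero_iff, ← Real.log_le_iff_le_exp (norm_pos_iff.2 h3)] at hz
      exact h (-Real.log ‖z‖, θ) (by linarith) (by rw [pt, hθ, e])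
    · rw [mem_closedBall_zero_iff, norm_pol']
      exact Real.exp_le_exp.2 (by linarith)
  rw [h2]
  refine m.isOpen_reg.inter (isClosed_iUnion_of_finite fun i => ?_).isOpen_compl
  exact ((isCompact_closedBall _ _).image_of_continuousOn
    ((m.φ (.inl i)).continuousOn_symm.mono (h1 i))).isClosed

/-- beyond the level `s` the deformation keeps the distance from the origin -/
lemma RealFam.norm_X : ∀ᶠ q in π.l, ∀ y ∈ R.Ex q, 4 * R.s < ‖m.F y‖ ^ 2 →
    ‖R.X q y‖ = ‖m.F y‖ := by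
  filter_upwards [R.A_iso, R.cyl, R.cone, R.W_top.eventually_gt_atTop 0] with q h1 h2 h3 h4 y hy h
  have h5 := R.w0_le
  have h6 := m.one_le
  rcases reg_cases hy.1 with h7 | ⟨j, p, hp, rfl⟩
  · linarith
  rw [← sq_eq_sq₀ (norm_nonneg _) (norm_nonneg _)]
  rw [norm_F_pt j hp] at h ⊢
  cases j with
  | inl i =>
    have h8 : p.1 < R.W q / 4 := lt_of_not_ge fun h8 => hy.2 i p h8 rfl
    rw [h2 i p (by linarith) (by linarith), h1, norm_xiCyl_sq (by linarith)]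
  | inr j => rw [h3 j p (by linarith), norm_xiCone_sq _ (by linarith)]

variable {R} (G : Geo R)

lemma Geo.exact_pt {y : M} (hy : y ∈ m.reg) : ∀ᶠ q in π.l, G.Φ (q, m.F y) = R.X q y := by
  filter_upwards [G.exact, R.ev_Ex ‖m.F y‖] with q h1 h2 using h1 y (h2 y hy le_rfl)

include G in
lemma Geo.tendsto_X {y : M} (hy : y ∈ m.reg) : Tendsto (fun q => R.X q y) π.l (𝓝 (m.F y)) :=
  ((G.dΦ (m.F y)).tendsto.comp (tendsto_at π.l _)).congr' (G.exact_pt hy)

lemma Geo.wq_X : ∀ᶠ q in π.l, ∀ y ∈ R.Ex q, G.wq (q, R.X q y) = 0 := by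
  filter_upwards [G.exact, G.zero] with q h1 h2 y hy using (h2 _).2 ⟨y, hy.1, h1 y hy⟩

/-- the derivative of the diffeomorphisms in the parameter -/
noncomputable def Geo.LΦ (x : E3) : P →L[ℝ] E3 := (G.dΦ x).lin.choose

lemma Geo.linΦ (x : E3) : Lin π G.Φ x (G.LΦ x) := (G.dΦ x).lin.choose_spec

lemma LinP.congr {F : Type} [NormedAddCommGroup F] [NormedSpace ℝ F] {c c' : Q → F}
    {L : P →L[ℝ] F} (h : LinP π c L) (he : c' =ᶠ[π.l] c) : LinP π c' L := by
  refine IsLittleO.congr' h ?_ EventuallyEq.rfl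
  filter_upwards [he, π.lim.eventually he] with q h1 h2
  rw [h1, h2]

lemma Geo.linX {y : M} (hy : y ∈ m.reg) : LinP π (fun q => R.X q y) (G.LΦ (m.F y)) :=
  (G.linΦ _).pt.congr ((G.exact_pt hy).mono fun _ h => h.symm)

end gen

variable {R : RealFam m (seqPar P)} (G : Geo R)

lemma Geo.continuous_LΦ : Continuous G.LΦ := continuous_lin G.linΦ

/-- on the shrinker the velocity is the normal part of the displacement -/
theorem Geo.v_Φ {y : M} (hy : y ∈ m.reg) (b : P) :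
    G.v b (m.F y) = -⟪m.nu y, G.LΦ (m.F y) b⟫ := by
  have h1 := (Lin.comp (f₀ := fun x => x) (G.d2 (m.F y)).toD1 (G.dΦ (m.F y)).toD0 (G.lin _)
    (G.linΦ _)).pt
  have h2 : LinP (seqPar P) (fun q => G.wq (q, G.Φ (q, m.F y))) 0 :=
    LinP.congr (c := fun _ => 0) (by simp [LinP]) (G.zero.mono fun q h => (h _).2 ⟨y, hy, rfl⟩)
  have h3 := congrArg (fun L => L b) (h1.unique h2)
  simp only [add_apply, ContinuousLinearMap.comp_apply, zero_apply] at h3
  rw [Model.nu, ← G.grad_eq (m.w_F hy), inner_grad, G.v_apply]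
  linarith

theorem Geo.v_pt {y : M} (hy : y ∈ m.reg) {LX : P →L[ℝ] E3}
    (h : LinP (seqPar P) (fun q => R.X q y) LX) (b : P) : G.v b (m.F y) = -⟪m.nu y, LX b⟫ := by
  rw [G.v_Φ hy, (G.linX hy).unique h]

theorem Geo.v_F {Y : Type} [NormedAddCommGroup Y] [NormedSpace ℝ Y] {ψ : Y → M} {y : Y}
    (hy : ψ y ∈ m.reg) {LX : P →L[ℝ] E3} (h : Lin (seqPar P) (fun z => R.X z.1 (ψ z.2)) y LX)
    (b : P) : G.v b (m.F (ψ y)) = -⟪m.nu (ψ y), LX b⟫ := G.v_pt hy h.pt b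

end Vale.Agent.P218GE
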